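import Vale.Agent.P022.H567.Gch

/-! [EXT]: a finite extension, with its norm, containing the coordinates of a vector. -/

open NumberField Matrix

noncomputable section

namespace Vale.Agent.P022.C

theorem EXT : EXTStmt := by
  intro E _ _ _ w
  classical
  let F : IntermediateField E (AlgebraicClosure E) := IntermediateField.adjoin E {w 0, w 1}
  have hF : FiniteDimensional E F :=
    IntermediateField.finiteDimensional_adjoin fun x _ => Algebra.IsIntegral.isIntegral x
  have : FiniteDimensional ℚ_[2] F := Module.Finite.trans E F
  have : Algebra.IsAlgebraic ℚ_[2] F := Algebra.IsAlgebraic.of_finite ℚ_[2] F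
  refine ⟨F, spectralNorm.nontriviallyNormedField ℚ_[2] F, spectralNorm.normedAlgebra ℚ_[2] F,
    ?_, ?_, spectralNorm.normedAlgebra' ℚ_[2] E F, ?_, F.val, ?_, ?_⟩
  · let := spectralNorm.nontriviallyNormedField ℚ_[2] F
    exact IsUltrametricDist.isUltrametricDist_of_isNonarchimedean_norm
      (isNonarchimedean_spectralNorm (K := ℚ_[2]) (L := F))
  · assumption
  · infer_instance
  · intro a
    refine ⟨w a, IntermediateField.subset_adjoin E _ ?_⟩
    fin_cases a <;> simp
  · intro a
    rfl

end Vale.Agent.P022.C
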