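import Vale.Agent.P022.H567.Gch

/-! [LINE]: the character on a stable line is continuous. -/

open NumberField Matrix

noncomputable section

namespace Vale.Agent.P022.C

theorem LINE : LINEStmt := by
  intro K _ _ _ j E E' _ _ _ _ _ _ _ _ _ r hr hirr w hw hst
  classical
  obtain ⟨i, hi⟩ : ∃ i, w i ≠ 0 := by
    by_contra h
    push Not at h
    exact hw (funext h)
  let M : GK j → Matrix (Fin 2) (Fin 2) E' := fun g =>
    ((r g : Matrix (Fin 2) (Fin 2) E).map (algebraMap E E'))
  let a : GK j → E' := fun g => (M g *ᵥ w) i / w i
  have ha : ∀ g : GK j, M g *ᵥ w = a g • w := by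
    intro g
    obtain ⟨b, hb⟩ := hst g
    have hb' : M g *ᵥ w = b • w := hb
    have : a g = b := by
      simp only [a]
      rw [hb', Pi.smul_apply, smul_eq_mul, mul_div_cancel_right₀ _ hi]
    rw [this, hb']
  have huniq : ∀ b c : E', b • w = c • w → b = c := by
    intro b c h
    have := congrFun h i
    simp only [Pi.smul_apply, smul_eq_mul] at this
    exact mul_right_cancel₀ hi this
  have hM1 : M 1 = 1 := by
    simp [M]
  have hMm : ∀ g h : GK j, M (g * h) = M g * M h := by
    intro g h
    simp only [M]
    rw [Subgroup.coe_mul, map_mul, Units.val_mul, Matrix.map_mul]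
  let ρ : GK j →* E' :=
    { toFun := a
      map_one' := by
        apply huniq
        rw [← ha, hM1, one_mulVec, one_smul]
      map_mul' := fun g h => by
        apply huniq
        rw [← ha, hMm, ← mulVec_mulVec, ha h, mulVec_smul, ha g, smul_smul, mul_comm] }
  have hcont : Continuous fun g : GK j => a g := by
    have h1 : Continuous fun g : GK j => (r g : Matrix (Fin 2) (Fin 2) E) :=
      Units.continuous_val.comp (hr.comp continuous_subtype_val)
    have h2 : Continuous fun g : GK j => M g :=
      h1.matrix_map (continuous_algebraMap E E')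
    have h3 : Continuous fun g : GK j => (M g *ᵥ w) i :=
      (continuous_apply i).comp (h2.matrix_mulVec continuous_const)
    exact h3.div_const _
  refine ⟨ρ.toHomUnits, ?_, fun g => ?_, ?_⟩
  · rw [Units.continuous_iff]
    refine ⟨?_, ?_⟩
    · exact hcont
    · have : (fun g : GK j => (((ρ.toHomUnits g)⁻¹ : E'ˣ) : E')) = fun g => a g⁻¹ := by
        funext g
        rw [← map_inv]
        rfl
      exact this ▸ hcont.comp continuous_inv
  · exact ha g
  · exact hirr w hw

end Vale.Agent.P022.C
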